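import Vale.Agent.P155Z.Sk

/-!
# P155: weighted quadratic variation along the dyadic grid
-/

namespace Vale.Agent.P155.Tree.FOL

open MeasureTheory Filter Topology Set Vale.Agent.P155.Tree

lemma tt_nonneg (n i : ℕ) : 0 ≤ tt n i := by unfold tt; positivity

lemma tt_zero (n : ℕ) : tt n 0 = 0 := by simp [tt]

lemma tt_succ (n i : ℕ) : tt n (i + 1) = tt n i + 1 / 2 ^ n := by
  unfold tt; push_cast; ring

lemma tt_mono (n : ℕ) {i j : ℕ} (h : i ≤ j) : tt n i ≤ tt n j := by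
  unfold tt; gcongr

lemma tt_le_iff (n i : ℕ) (a : ℝ) : tt n i ≤ a ↔ (i : ℝ) ≤ a * 2 ^ n := by
  unfold tt; rw [div_le_iff₀ (by positivity)]

lemma le_tt_iff (n i : ℕ) (a : ℝ) : a ≤ tt n i ↔ a * 2 ^ n ≤ (i : ℝ) := by
  unfold tt; rw [le_div_iff₀ (by positivity)]

lemma tt_lt_iff (n i : ℕ) (a : ℝ) : tt n i < a ↔ (i : ℝ) < a * 2 ^ n := by
  unfold tt; rw [div_lt_iff₀ (by positivity)]

lemma tendsto_mesh : Tendsto (fun n : ℕ => (1 : ℝ) / 2 ^ n) atTop (𝓝 0) := by
  have := tendsto_pow_atTop_nhds_zero_of_lt_one (r := (1 / 2 : ℝ)) (by norm_num) (by norm_num)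
  refine this.congr fun n => ?_
  rw [div_pow, one_pow]

lemma tendsto_tt_ceil {a : ℝ} (ha : 0 ≤ a) :
    Tendsto (fun n => tt n ⌈a * 2 ^ n⌉₊) atTop (𝓝 a) := by
  have h1 : Tendsto (fun n : ℕ => a + (1 : ℝ) / 2 ^ n) atTop (𝓝 (a + 0)) :=
    tendsto_const_nhds.add tendsto_mesh
  rw [add_zero] at h1
  refine tendsto_of_tendsto_of_tendsto_of_le_of_le tendsto_const_nhds h1 (fun n => ?_)
    (fun n => ?_)
  · exact (le_tt_iff _ _ _).2 (Nat.le_ceil _)
  · refine (tt_le_iff _ _ _).2 ?_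
    have := Nat.ceil_lt_add_one (a := a * 2 ^ n) (by positivity)
    have e : (a + 1 / 2 ^ n) * 2 ^ n = a * 2 ^ n + 1 := by field_simp
    rw [e]; exact this.le

lemma tendsto_tt_floor {a : ℝ} (ha : 0 ≤ a) :
    Tendsto (fun n => tt n ⌊a * 2 ^ n⌋₊) atTop (𝓝 a) := by
  have h1 : Tendsto (fun n : ℕ => a - (1 : ℝ) / 2 ^ n) atTop (𝓝 (a - 0)) :=
    tendsto_const_nhds.sub tendsto_mesh
  rw [sub_zero] at h1
  refine tendsto_of_tendsto_of_tendsto_of_le_of_le h1 tendsto_const_nhds (fun n => ?_)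
    (fun n => ?_)
  · refine (le_tt_iff _ _ _).2 ?_
    have := Nat.lt_floor_add_one (a * 2 ^ n)
    have e : (a - 1 / 2 ^ n) * 2 ^ n = a * 2 ^ n - 1 := by field_simp
    rw [e]; linarith
  · exact (tt_le_iff _ _ _).2 (Nat.floor_le (by positivity))

/-- The quadratic variation up to a moving end point. -/
lemma qv_end {x : ℝ → ℝ} (hq : HasQV x) {ρ : ℝ} (hρ : 0 ≤ ρ) {m : ℕ → ℕ}
    (hm : Tendsto (fun n => tt n (m n)) atTop (𝓝 ρ)) :
    Tendsto (fun n => ∑ i ∈ Finset.range (m n), dx x n i ^ 2) atTop (𝓝 (4 * ρ)) := by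
  have mono : ∀ n {i j : ℕ}, i ≤ j → ∑ k ∈ Finset.range i, dx x n k ^ 2 ≤
      ∑ k ∈ Finset.range j, dx x n k ^ 2 := fun n i j h =>
    Finset.sum_le_sum_of_subset_of_nonneg (Finset.range_mono h) fun _ _ _ => sq_nonneg _
  refine tendsto_order.2 ⟨fun a ha => ?_, fun a ha => ?_⟩
  · obtain ⟨ε, hε, hεa⟩ : ∃ ε : ℝ, 0 < ε ∧ a < 4 * (ρ - ε) := ⟨(4 * ρ - a) / 8, by linarith, by
      linarith⟩
    have h1 := (hq (max (ρ - ε) 0) (le_max_right _ _)).eventually
      (lt_mem_nhds (show a < 4 * max (ρ - ε) 0 from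
        lt_of_lt_of_le hεa (by gcongr; exact le_max_left _ _)))
    have h2 := hm.eventually (lt_mem_nhds (show ρ - ε < ρ by linarith))
    filter_upwards [h1, h2] with n h1 h2
    refine lt_of_lt_of_le h1 (mono n ?_)
    have : max (ρ - ε) 0 ≤ tt n (m n) := max_le h2.le (tt_nonneg _ _)
    exact Nat.floor_le_of_le ((le_tt_iff _ _ _).1 this)
  · obtain ⟨ε, hε, hεa⟩ : ∃ ε : ℝ, 0 < ε ∧ 4 * (ρ + ε) < a := ⟨(a - 4 * ρ) / 8, by linarith, by
      linarith⟩
    have h1 := (hq (ρ + ε) (by linarith)).eventually (gt_mem_nhds hεa)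
    have h2 := hm.eventually (gt_mem_nhds (show ρ < ρ + ε by linarith))
    filter_upwards [h1, h2] with n h1 h2
    refine lt_of_le_of_lt (mono n ?_) h1
    exact Nat.le_floor ((tt_le_iff _ _ _).1 h2.le)

variable {E : Type} [NormedAddCommGroup E] [NormedSpace ℝ E] [CompleteSpace E]

/-- The functions for which the weighted quadratic variation converges. -/
def WQ (x : ℝ → ℝ) (ρ : ℝ) (m : ℕ → ℕ) (c : ℝ → E) : Prop :=
  IntervalIntegrable c volume 0 ρ ∧
    Tendsto (fun n => ∑ i ∈ Finset.range (m n), dx x n i ^ 2 • c (tt n i)) atTop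
      (𝓝 ((4 : ℝ) • ∫ s in (0 : ℝ)..ρ, c s))

omit [CompleteSpace E] in
lemma WQ.sub {x : ℝ → ℝ} {ρ : ℝ} {m : ℕ → ℕ} {c d : ℝ → E} (hc : WQ x ρ m c)
    (hd : WQ x ρ m d) : WQ x ρ m (fun s => c s - d s) := by
  refine ⟨hc.1.sub hd.1, ?_⟩
  rw [intervalIntegral.integral_sub hc.1 hd.1, smul_sub]
  refine (hc.2.sub hd.2).congr fun n => ?_
  rw [← Finset.sum_sub_distrib]
  exact Finset.sum_congr rfl fun i _ => (smul_sub _ _ _).symm

omit [CompleteSpace E] in
lemma WQ.add {x : ℝ → ℝ} {ρ : ℝ} {m : ℕ → ℕ} {c d : ℝ → E} (hc : WQ x ρ m c)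
    (hd : WQ x ρ m d) : WQ x ρ m (fun s => c s + d s) := by
  refine ⟨hc.1.add hd.1, ?_⟩
  rw [intervalIntegral.integral_add hc.1 hd.1, smul_add]
  refine (hc.2.add hd.2).congr fun n => ?_
  rw [← Finset.sum_add_distrib]
  exact Finset.sum_congr rfl fun i _ => (smul_add _ _ _).symm

omit [CompleteSpace E] in
lemma WQ.sum {x : ℝ → ℝ} {ρ : ℝ} {m : ℕ → ℕ} {c : ℕ → ℝ → E} (hc : ∀ j, WQ x ρ m (c j))
    (J : ℕ) : WQ x ρ m (fun s => ∑ j ∈ Finset.range J, c j s) := by
  induction J with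
  | zero => exact ⟨by simp, by simp⟩
  | succ J ih =>
    simp only [Finset.sum_range_succ]
    exact ih.add (hc J)

lemma wq_ind {x : ℝ → ℝ} (hq : HasQV x) {ρ : ℝ} (hρ : 0 ≤ ρ) {m : ℕ → ℕ}
    (hm : Tendsto (fun n => tt n (m n)) atTop (𝓝 ρ)) {a : ℝ} (ha : 0 ≤ a) (v : E) :
    WQ x ρ m ((Iio a).indicator fun _ => v) := by
  refine ⟨?_, ?_⟩
  · rw [intervalIntegrable_iff]
    exact (integrableOn_const (by simp [uIoc])).indicator measurableSet_Iio
  · have hI : ∫ s in (0 : ℝ)..ρ, (Iio a).indicator (fun _ => v) s = min ρ a • v := by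
      rw [intervalIntegral.integral_of_le hρ, setIntegral_indicator measurableSet_Iio,
        setIntegral_const]
      congr 1
      rcases le_or_gt a ρ with h | h
      · have : Ioc 0 ρ ∩ Iio a = Ioo 0 a := by
          ext s
          simp only [mem_inter_iff, mem_Ioc, mem_Iio, mem_Ioo]
          exact ⟨fun h' => ⟨h'.1.1, h'.2⟩, fun h' => ⟨⟨h'.1, h'.2.le.trans h⟩, h'.2⟩⟩
        rw [this, min_eq_right h, Real.volume_real_Ioo_of_le ha, sub_zero]
      · have : Ioc 0 ρ ∩ Iio a = Ioc 0 ρ := by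
          ext s
          simp only [mem_inter_iff, mem_Ioc, mem_Iio]
          exact ⟨fun h' => h'.1, fun h' => ⟨h', lt_of_le_of_lt h'.2 h⟩⟩
        rw [this, min_eq_left h.le, Real.volume_real_Ioc_of_le hρ, sub_zero]
    rw [hI, smul_smul]
    have hm' : Tendsto (fun n => tt n (min (m n) ⌈a * 2 ^ n⌉₊)) atTop (𝓝 (min ρ a)) := by
      refine (hm.min (tendsto_tt_ceil ha)).congr fun n => ?_
      rcases le_total (m n) ⌈a * 2 ^ n⌉₊ with h | h
      · rw [min_eq_left h, min_eq_left (tt_mono n h)]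
      · rw [min_eq_right h, min_eq_right (tt_mono n h)]
    refine ((qv_end hq (le_min hρ ha) hm').smul_const v).congr fun n => ?_
    rw [Finset.sum_smul]
    refine (Finset.sum_subset (Finset.range_mono (min_le_left _ ⌈a * 2 ^ n⌉₊)) ?_).symm.trans ?_
      |>.symm
    · intro i hi hi'
      have : ¬ tt n i < a := by
        rw [tt_lt_iff, ← Nat.lt_ceil]
        simp only [Finset.mem_range, lt_min_iff] at hi hi'
        tauto
      rw [indicator_of_notMem (by simpa using this), smul_zero]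
    · refine Finset.sum_congr rfl fun i hi => ?_
      have : tt n i < a := by
        rw [tt_lt_iff, ← Nat.lt_ceil]
        simp only [Finset.mem_range, lt_min_iff] at hi
        exact hi.2
      rw [indicator_of_mem (by simpa using this)]

/-- The weighted quadratic variation. -/
lemma wqv {x : ℝ → ℝ} (hq : HasQV x) {ρ ρ' : ℝ} (hρ : 0 ≤ ρ) (hρ' : ρ < ρ') {m : ℕ → ℕ}
    (hm : Tendsto (fun n => tt n (m n)) atTop (𝓝 ρ)) {c : ℝ → E}
    (hc : ContinuousOn c (Icc 0 ρ')) :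
    Tendsto (fun n => ∑ i ∈ Finset.range (m n), dx x n i ^ 2 • c (tt n i)) atTop
      (𝓝 ((4 : ℝ) • ∫ s in (0 : ℝ)..ρ, c s)) := by
  have hci : IntervalIntegrable c volume 0 ρ :=
    (hc.mono (by rw [uIcc_of_le hρ]; exact Icc_subset_Icc_right hρ'.le)).intervalIntegrable
  refine Metric.tendsto_nhds.2 fun ε hε => ?_
  set η : ℝ := ε / (8 * ρ + 3) with hη
  have hη0 : 0 < η := by positivity
  obtain ⟨δ, hδ, hu⟩ := Metric.uniformContinuousOn_iff.1
    (isCompact_Icc.uniformContinuousOn_of_continuous hc) η hη0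
  set J : ℕ := ⌊ρ' / δ⌋₊ + 1 with hJ
  set d : ℝ → E := fun s => ∑ j ∈ Finset.range J,
    ((Iio (((j : ℝ) + 1) * δ)).indicator (fun _ => c (j * δ)) s -
      (Iio ((j : ℝ) * δ)).indicator (fun _ => c (j * δ)) s) with hd
  have hW : WQ x ρ m d := WQ.sum (c := fun j s =>
    ((Iio (((j : ℝ) + 1) * δ)).indicator (fun _ => c (j * δ)) s -
      (Iio ((j : ℝ) * δ)).indicator (fun _ => c (j * δ)) s))
    (fun j => (wq_ind hq hρ hm (by positivity) _).sub (wq_ind hq hρ hm (by positivity) _)) J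
  have hcd : ∀ s ∈ Icc (0 : ℝ) ρ', ‖c s - d s‖ ≤ η := by
    intro s hs
    have h0 : 0 ≤ s / δ := div_nonneg hs.1 hδ.le
    have h1 : (⌊s / δ⌋₊ : ℝ) * δ ≤ s := by
      rw [← le_div_iff₀ hδ]; exact Nat.floor_le h0
    have h2 : s < ((⌊s / δ⌋₊ : ℝ) + 1) * δ := by
      rw [← div_lt_iff₀ hδ]; exact Nat.lt_floor_add_one _
    have e : d s = c (⌊s / δ⌋₊ * δ) := by
      simp only [hd]
      rw [Finset.sum_eq_single ⌊s / δ⌋₊]
      · rw [indicator_of_mem (by simpa using h2), indicator_of_notMem (by simpa using h1),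
          sub_zero]
      · intro j _ hj
        rcases lt_or_gt_of_ne hj with h | h
        · have h3 : ((j : ℝ) + 1) * δ ≤ s := by
            refine le_trans ?_ h1
            gcongr
            exact_mod_cast h
          have h4 : (j : ℝ) * δ ≤ s := le_trans (by gcongr; linarith) h3
          rw [indicator_of_notMem (by simpa using h3), indicator_of_notMem (by simpa using h4),
            sub_zero]
        · have h3 : s < (j : ℝ) * δ := by
            refine lt_of_lt_of_le h2 ?_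
            gcongr
            exact_mod_cast h
          have h4 : s < ((j : ℝ) + 1) * δ := lt_of_lt_of_le h3 (by gcongr; linarith)
          rw [indicator_of_mem (by simpa using h4), indicator_of_mem (by simpa using h3),
            sub_self]
      · intro h
        exfalso
        apply h
        rw [Finset.mem_range, hJ, Nat.lt_succ_iff]
        exact Nat.floor_le_floor (by gcongr; exact hs.2)
    rw [e, ← dist_eq_norm]
    refine (hu s hs _ ⟨by positivity, h1.trans hs.2⟩ ?_).le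
    rw [Real.dist_eq, abs_lt]
    constructor <;> nlinarith
  have h1 := Metric.tendsto_nhds.1 hW.2 η hη0
  have h2 := (qv_end hq hρ hm).eventually (gt_mem_nhds (show 4 * ρ < 4 * ρ + 1 by linarith))
  have h3 := hm.eventually (gt_mem_nhds hρ')
  filter_upwards [h1, h2, h3] with n h1 h2 h3
  have a1 : dist (∑ i ∈ Finset.range (m n), dx x n i ^ 2 • c (tt n i))
      (∑ i ∈ Finset.range (m n), dx x n i ^ 2 • d (tt n i)) ≤ (4 * ρ + 1) * η := by
    rw [dist_eq_norm, ← Finset.sum_sub_distrib]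
    refine (norm_sum_le _ _).trans ?_
    refine le_trans (Finset.sum_le_sum (g := fun i => dx x n i ^ 2 * η) fun i hi => ?_) ?_
    · rw [← smul_sub, norm_smul, Real.norm_of_nonneg (sq_nonneg _)]
      gcongr
      exact hcd _ ⟨tt_nonneg _ _, (tt_mono n (Finset.mem_range.1 hi).le).trans h3.le⟩
    · rw [← Finset.sum_mul]
      gcongr
  have a2 : dist ((4 : ℝ) • ∫ s in (0 : ℝ)..ρ, d s) ((4 : ℝ) • ∫ s in (0 : ℝ)..ρ, c s) ≤
      4 * ρ * η := by
    rw [dist_comm, dist_eq_norm, ← smul_sub, ← intervalIntegral.integral_sub hci hW.1, norm_smul]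
    have := intervalIntegral.norm_integral_le_of_norm_le_const (a := 0) (b := ρ) (C := η)
      (f := fun s => c s - d s) fun s hs => by
        rw [uIoc_of_le hρ] at hs
        exact hcd s ⟨hs.1.le, hs.2.trans hρ'.le⟩
    rw [sub_zero, abs_of_nonneg hρ] at this
    rw [Real.norm_of_nonneg (by norm_num)]
    nlinarith
  have a3 := dist_triangle4 (∑ i ∈ Finset.range (m n), dx x n i ^ 2 • c (tt n i))
    (∑ i ∈ Finset.range (m n), dx x n i ^ 2 • d (tt n i))
    ((4 : ℝ) • ∫ s in (0 : ℝ)..ρ, d s) ((4 : ℝ) • ∫ s in (0 : ℝ)..ρ, c s)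
  have a4 : (8 * ρ + 3) * η = ε := by rw [hη]; field_simp
  nlinarith

omit [NormedSpace ℝ E] [CompleteSpace E] in
/-- Small remainders sum to zero. -/
lemma rem_zero {x : ℝ → ℝ} (hq : HasQV x) {ρ : ℝ} (hρ : 0 ≤ ρ) {m : ℕ → ℕ}
    (hm : Tendsto (fun n => tt n (m n)) atTop (𝓝 ρ)) {r : ℕ → ℕ → E}
    (hr : ∀ ε : ℝ, 0 < ε → ∀ᶠ n in atTop, ∀ i < m n,
      ‖r n i‖ ≤ ε * (dx x n i ^ 2 + 1 / 2 ^ n)) :
    Tendsto (fun n => ∑ i ∈ Finset.range (m n), r n i) atTop (𝓝 0) := by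
  refine Metric.tendsto_nhds.2 fun ε hε => ?_
  set η : ℝ := ε / (5 * ρ + 3) with hη
  have hη0 : 0 < η := by positivity
  have h2 := (qv_end hq hρ hm).eventually (gt_mem_nhds (show 4 * ρ < 4 * ρ + 1 by linarith))
  have h3 := hm.eventually (gt_mem_nhds (show ρ < ρ + 1 by linarith))
  filter_upwards [hr η hη0, h2, h3] with n h1 h2 h3
  rw [dist_zero_right]
  refine lt_of_le_of_lt ((norm_sum_le _ _).trans (Finset.sum_le_sum
    (g := fun i => η * (dx x n i ^ 2 + 1 / 2 ^ n)) fun i hi => h1 i (Finset.mem_range.1 hi))) ?_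
  rw [← Finset.mul_sum, Finset.sum_add_distrib, Finset.sum_const, Finset.card_range, nsmul_eq_mul]
  have e : (m n : ℝ) * (1 / 2 ^ n) = tt n (m n) := by unfold tt; ring
  rw [e]
  have a4 : (5 * ρ + 3) * η = ε := by rw [hη]; field_simp
  nlinarith

/-- Eventually the grid is fine and inside `[0, ρ']`. -/
lemma grid_fine {ρ ρ' : ℝ} (hρ' : ρ < ρ') {m : ℕ → ℕ}
    (hm : Tendsto (fun n => tt n (m n)) atTop (𝓝 ρ)) {δ : ℝ} (hδ : 0 < δ) :
    ∀ᶠ n in atTop, (1 : ℝ) / 2 ^ n < δ ∧ ∀ i < m n, tt n (i + 1) ≤ ρ' := by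
  filter_upwards [hm.eventually (gt_mem_nhds hρ'), tendsto_mesh.eventually (gt_mem_nhds hδ)]
    with n h1 h2
  exact ⟨h2, fun i hi => (tt_mono n hi).trans h1.le⟩

end Vale.Agent.P155.Tree.FOL
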